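import Vale.Agent.P281.H383.TM.Fin

/-!
# P281, project T-M (helper383): block M1, the relative forms (for effective rational divisors which
are not SNC)
-/

open scoped Manifold ContDiff Topology
open Set Filter Metric Module Vale.Agent.P281 Vale.Agent.P272.K
open Vale.Agent.P281.MF Vale.Agent.P281.ISO Vale.Agent.P281.ELL Vale.Agent.P281.H713
open Vale.Agent.P281.H713.TZ Vale.Agent.P281.H64.Thin Vale.Agent.P281.H64.Gen

set_option linter.all false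

noncomputable section

namespace Vale.Agent.P281.H383.TM

section
variable {n p : ℕ} {X Y F : Type} [TopologicalSpace X] [T2Space X] [ConnectedSpace X]
  [ChartedSpace (Cm n) X] [IsManifold 𝓘(ℂ, Cm n) ω X] [TopologicalSpace Y] [T2Space Y]
  [ChartedSpace (Cm p) Y] [IsManifold 𝓘(ℂ, Cm p) ω Y]
variable {E₀ : Type} [NormedAddCommGroup E₀] [NormedSpace ℂ E₀] [FiniteDimensional ℂ E₀]
  [TopologicalSpace F] [ChartedSpace E₀ F] [IsManifold 𝓘(ℂ, E₀) ω F]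

/-- **the relative forms of a family of curves**: as many as on one fibre -/
theorem hasForms_oneN (hn : n = p + 1) (hE₀ : finrank ℂ E₀ = 1) (f : X → Y)
    (hf : ContMDiff 𝓘(ℂ, Cm n) 𝓘(ℂ, Cm p) ω f)
    (S : Set Y)
    (Δ : Set X → ℝ) (hs' : IsBd n Δ) (hle : ∀ D ∈ horizontal f S Δ, Δ D ≤ 1)
    (hC : IsFamilyOfCurves (Cm n) (Cm p) f S Δ)
    [CompactSpace F] [PreconnectedSpace F] (i : F → X)
    (hi : ContMDiff 𝓘(ℂ, E₀) 𝓘(ℂ, Cm n) ω i)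
    (hi₃ : ∀ p, Function.Injective (mfderiv 𝓘(ℂ, E₀) 𝓘(ℂ, Cm n) i p)) {y : Y}
    (hy : y ∉ S) (hfi : ∀ p, f (i p) = y) {j₁ : ℕ}
    (h₁ : KodGE E₀ (fun (D : Set X) p g => ∃ e, IsLocalEq (Cm n) D e (i p) ∧
        ∀ᶠ q in 𝓝 p, g q = e (i q)) Δ j₁) (e₀ : Cm n ≃L[ℂ] (Cm p × ℂ)) :
    ∃ r : ℕ, j₁ ≤ r ∧ (∀ x, f x ∉ S → Function.Surjective (dM (Cm n) (Cm p) f x)) ∧
      ∀ y, y ∉ S → HasForms f S e₀ Δ r y := by
  have hE : finrank ℂ (Cm n) = finrank ℂ (Cm p) + 1 := by rw [fr, fr, hn]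
  have hfh : ∀ x, HolM (Cm n) (Cm p) f x := fun x => hf x
  have hih : ∀ p, HolM E₀ (Cm n) i p := fun p => hi p
  have hΔ0 : ∀ D, 0 ≤ Δ D := fun D => hs'.nonneg D
  have h𝒲f : (horizontal f S Δ).Finite := hs'.finite.subset fun D hD => hD.1
  have h𝒲p : ∀ D ∈ horizontal f S Δ, IsPrimeDivisor (Cm n) D := fun D hD =>
    hs'.prime D hD.1
  have h𝒲 : ∀ D, Δ D ≠ 0 → D ∈ horizontal f S Δ ∨ D ⊆ f ⁻¹' S := by
    intro D hD
    by_cases h1 : D ⊆ f ⁻¹' S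
    · exact Or.inr h1
    · exact Or.inl ⟨hD, h1⟩
  have hpos : ∀ D ∈ horizontal f S Δ, 0 < Δ D := fun D hD =>
    lt_of_le_of_ne (hΔ0 D) hD.1.symm
  have hj₁ : j₁ ≤ 1 := by
    have := kodGE_le h₁
    rwa [hE₀] at this
  rcases hC with hC | hC | hC
  · obtain ⟨g, m, Q, ι, U, π, α, hg, hC⟩ := hC
    have hsub : ∀ x, f x ∉ S → Function.Surjective (dM (Cm n) (Cm p) f x) := by
      intro x hx
      obtain ⟨ζ, -, h1⟩ := hC.coord x hx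
      exact surj_of_coord (E₀ := ℂ) (by rw [hE, Module.finrank_self]) h1
    refine ⟨1, hj₁, hsub, fun y hy => hasForms_curve hC ?_ hfh e₀ hΔ0 hy⟩
    rw [finrank_euclideanSpace_fin]
    exact hg
  · obtain ⟨m, d, Q, ι, U, π, u, P, hC⟩ := hC
    have hT := hC.toIsTorusFamily
    have hn : 0 < m := by
      obtain ⟨a₀, ha₀⟩ := (hT.cover y).1 hy
      exact pos_of_period (π a₀ y) (by rw [Module.finrank_self]; exact one_pos)
    have hsub : ∀ x, f x ∉ S → Function.Surjective (dM (Cm n) (Cm p) f x) := by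
      intro x hx
      obtain ⟨a, ha⟩ := (hT.cover _).1 hx
      obtain ⟨ζ, -, -, h1⟩ := hT.coord a x ha
      exact surj_of_coord (E₀ := ℂ) (by rw [hE, Module.finrank_self])
        (P := (mfderiv 𝓘(ℂ, Cm n) 𝓘(ℂ, ℂ) ζ x : Cm n →L[ℂ] ℂ)) h1
    rcases Nat.eq_zero_or_pos d with hd | hd
    · have h3 : ∀ D, Δ D ≠ 0 → ∀ q, i q ∉ D := by
        intro D hD q hq
        have hfq : f (i q) ∉ S := by rw [hfi]; exact hy
        obtain ⟨a, ha⟩ := (hT.cover _).1 hfq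
        rcases h𝒲 D hD with h1 | h1
        · obtain ⟨l, -⟩ := hC.marked a (i q) ha D h1 hq
          rw [hd] at l
          exact l.elim0
        · exact hfq (h1 hq)
      have hj0 : j₁ = 0 := kodF_ell hE₀ hT hfh hy hih hfi hi₃ h3 h₁
      exact ⟨0, hj0.le, hsub, fun y hy => hasForms_torus hn hT hfh e₀ hΔ0 hy⟩
    · obtain ⟨δ, hδ, hδ'⟩ : ∃ δ : ℝ, 0 < δ ∧ ∀ D ∈ horizontal f S Δ, δ ≤ Δ D := by
        rcases (horizontal f S Δ).eq_empty_or_nonempty with h0 | h0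
        · exact ⟨1, one_pos, fun D hD => by rw [h0] at hD; exact absurd hD (Set.notMem_empty D)⟩
        · obtain ⟨D₀, hD₀, hmin⟩ := h𝒲f.exists_minimalFor Δ _ h0
          refine ⟨Δ D₀, hpos D₀ hD₀, fun D hD => ?_⟩
          rcases le_total (Δ D₀) (Δ D) with h1 | h1
          · exact h1
          · exact hmin hD h1
      exact ⟨1, hj₁, hsub, fun y hy => hasForms_ell hd hC h𝒲f h𝒲p hfh e₀ hΔ0 hδ hδ' hy⟩
  · obtain ⟨d, δ, ι, U, P, c, hC⟩ := hC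
    have hsub := sub_line hE hC
    have hq : ∀ l, ∃ q : ℚ, δ l = q := by
      intro l
      obtain ⟨D, hD, hDl⟩ := weight_eq hC hy l
      obtain ⟨q, h1, -⟩ := hs'.rational D
      exact ⟨q, by rw [← hDl, h1]⟩
    have h0 : ∀ l, 0 < δ l := by
      intro l
      obtain ⟨D, hD, hDl⟩ := weight_eq hC hy l
      rw [← hDl]
      exact hpos D hD
    have h1 : ∀ l, δ l ≤ 1 := by
      intro l
      obtain ⟨D, hD, hDl⟩ := weight_eq hC hy l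
      rw [← hDl]
      exact hle D hD
    rcases le_or_gt (∑ l, δ l) 2 with hs | hs
    · obtain ⟨hs2, hj0⟩ := kodF_line hE₀ hfh hC hih hy hfi hi₃ h𝒲 hs h₁
      exact ⟨0, hj0.le, hsub, fun y hy =>
        hasForms_line₀ hfh hC h𝒲f h𝒲p e₀ hΔ0 hq (fun l => (h0 l).le) h1 hs2 hy⟩
    · exact ⟨1, hj₁, hsub, fun y hy =>
        hasForms_line₁ hfh hC h𝒲f h𝒲p e₀ hΔ0 hq h0 h1 hs hy⟩

end

/-- **the relative forms in relative dimension one** (no SNC); `S` may be enlarged -/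
theorem hasFormsN {p : ℕ} {E₀ : Type} [NormedAddCommGroup E₀] [NormedSpace ℂ E₀]
    [FiniteDimensional ℂ E₀] (hE₀ : Module.finrank ℂ E₀ = 1) {X Y : Type} [TopologicalSpace X]
    [T2Space X] [CompactSpace X] [ConnectedSpace X]
    [ChartedSpace (Cm (p + 1)) X] [IsManifold 𝓘(ℂ, Cm (p + 1)) ω X] [TopologicalSpace Y]
    [T2Space Y] [ChartedSpace (Cm p) Y] [IsManifold 𝓘(ℂ, Cm p) ω Y] (f : X → Y)
    (Γ : Set X → ℝ) (hf : ContMDiff 𝓘(ℂ, Cm (p + 1)) 𝓘(ℂ, Cm p) ω f)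
    (hc : ∀ y, IsConnected (f ⁻¹' {y})) (hΓ : IsBd (p + 1) Γ)
    (hle : ∀ D, 1 < Γ D → ∃ S : Set Y, IsSmallSet (Cm p) S ∧ D ⊆ f ⁻¹' S) :
    ∃ S₀ : Set Y, IsSmallSet (Cm p) S₀ ∧ ∀ S : Set Y, IsSmallSet (Cm p) S → S₀ ⊆ S →
      H64.IsProperFibration (n := p + 1) (p := p) f S ∧
      H64.IsEtale (n := p + 1) (p := p) f S Γ ∧ (∀ D, 1 < Γ D → D ⊆ f ⁻¹' S) ∧
      ∀ y, y ∉ S → ∀ (F : Type) [TopologicalSpace F] [ChartedSpace E₀ F] (i : F → X),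
        H511.Surf.IsFibre (Cm (p + 1)) E₀ f y i → ∀ j₁ : ℕ,
        KodGE E₀ (fun (D : Set X) p' g => ∃ e, IsLocalEq (Cm (p + 1)) D e (i p') ∧
          ∀ᶠ q in 𝓝 p', g q = e (i q)) Γ j₁ →
        ∃ r : ℕ, j₁ ≤ r ∧ ∀ (e₀ : Cm (p + 1) ≃L[ℂ] (Cm p × ℂ)), ∀ y', y' ∉ S →
          HasForms f S e₀ Γ r y' := by
  have hsurj : Function.Surjective f := fun y => (hc y).nonempty
  have : PreconnectedSpace Y := by
    rw [preconnectedSpace_iff_univ, ← hsurj.range_eq]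
    exact isPreconnected_range hf.continuous
  obtain ⟨S₁, hS₁, hP⟩ := H364.crit H150.Gen.img (p + 1) p X Y f hf hc
  obtain ⟨S₂, hS₂, hE⟩ := etaleN H150.Gen.img hf hΓ.finite hΓ.prime
  have hex : ∀ D, ∃ S : Set Y, 1 < Γ D → IsSmallSet (Cm p) S ∧ D ⊆ f ⁻¹' S := by
    intro D
    by_cases h1 : 1 < Γ D
    · obtain ⟨S, hS⟩ := hle D h1
      exact ⟨S, fun _ => hS⟩
    · exact ⟨∅, fun h => absurd h h1⟩
  choose SD hSD using hex
  have hfin3 : {D | 1 < Γ D}.Finite := hΓ.finite.subset fun D (hD : 1 < Γ D) h0 => by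
    rw [h0] at hD
    exact absurd hD (by norm_num)
  obtain ⟨S₃, hS₃, hS₃'⟩ : ∃ S : Set Y, IsSmallSet (Cm p) S ∧
      ∀ D, 1 < Γ D → D ⊆ f ⁻¹' S := by
    refine ⟨⋃ D ∈ {D | 1 < Γ D}, SD D, IsSmallSet.biUnion hfin3 fun D hD => (hSD D hD).1,
      fun D hD => ?_⟩
    refine (hSD D hD).2.trans (preimage_mono ?_)
    intro y hy
    exact mem_biUnion (show D ∈ {D | 1 < Γ D} from hD) hy
  refine ⟨S₁ ∪ S₂ ∪ S₃, (hS₁.union hS₂).union hS₃, fun S hS hsub => ?_⟩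
  have h1 : H64.IsProperFibration (n := p + 1) (p := p) f S :=
    hP S ((subset_union_left.trans subset_union_left).trans hsub) hS.1
  have h2 : H64.IsEtale (n := p + 1) (p := p) f S Γ :=
    hE S ((subset_union_right.trans subset_union_left).trans hsub)
  have h3 : ∀ D, 1 < Γ D → D ⊆ f ⁻¹' S := fun D hD =>
    (hS₃' D hD).trans (preimage_mono (subset_union_right.trans hsub))
  have h4 : ∀ D ∈ horizontal f S Γ, Γ D ≤ 1 := by
    intro D hD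
    by_contra h4
    exact hD.2 (h3 D (not_le.1 h4))
  have hco := (H383.Gen.compl p Y S hS).2
  have hfam : IsFamilyOfCurves (Cm (p + 1)) (Cm p) f S Γ :=
    H511.td p X Y f S Γ hf h1 hco hΓ.finite (fun D hD => (hΓ.prime D hD).1) h2
  refine ⟨h1, h2, h3, fun y hy F _ _ i hi j₁ h₁ => ?_⟩
  obtain ⟨_, _, _, hi, hinj, hiy⟩ := hi
  let e₁ : Cm (p + 1) ≃L[ℂ] (Cm p × ℂ) := ContinuousLinearEquiv.ofFinrankEq (by simp)
  obtain ⟨r, hr, -, -⟩ := hasForms_oneN rfl hE₀ f hf S Γ hΓ h4 hfam i hi hinj hy hiy h₁ e₁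
  have hr1 : ∀ e₀ : Cm (p + 1) ≃L[ℂ] (Cm p × ℂ), ∃ r : ℕ, j₁ ≤ r ∧
      ∀ y, y ∉ S → HasForms f S e₀ Γ r y := fun e₀ => by
    obtain ⟨r, h5, -, h6⟩ := hasForms_oneN rfl hE₀ f hf S Γ hΓ h4 hfam i hi hinj hy hiy h₁ e₀
    exact ⟨r, h5, h6⟩
  refine ⟨j₁, le_rfl, fun e₀ y' hy' => ?_⟩
  obtain ⟨r, h5, h6⟩ := hr1 e₀
  obtain ⟨N, 𝒜, κ₀, Θ, Ξ, hN, h𝒜f, h𝒜p, hΘ, hΞ, hκ₀, x₁, hx₁, hΘx, hRx, hRi⟩ := h6 y' hy'
  refine ⟨N, 𝒜, κ₀, Θ, fun b => Ξ (Fin.castLE h5 b), hN, h𝒜f, h𝒜p, hΘ, fun b => hΞ _, hκ₀,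
    x₁, hx₁, hΘx, fun b => hRx _, fun c hc => ?_⟩
  classical
  set c' : Fin r → ℂ := fun b => if h : (b : ℕ) < j₁ then c ⟨b, h⟩ else 0 with hc'
  have hcc : ∀ b : Fin j₁, c' (Fin.castLE h5 b) = c b := by
    intro b
    have h7 : ((Fin.castLE h5 b : Fin r) : ℕ) < j₁ := b.2
    show (if h : ((Fin.castLE h5 b : Fin r) : ℕ) < j₁ then c ⟨(Fin.castLE h5 b : Fin r), h⟩
      else 0) = c b
    rw [dif_pos h7]
    rfl
  have h7 := hRi c' fun ξ hξ => by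
    rw [← hc ξ hξ]
    symm
    refine Fintype.sum_of_injective (Fin.castLE h5) (Fin.castLE_injective h5) _ _ ?_ ?_
    · intro b hb
      have h8 : ¬ (b : ℕ) < j₁ := fun h9 => hb ⟨⟨b, h9⟩, Fin.ext rfl⟩
      show (if h : (b : ℕ) < j₁ then c ⟨b, h⟩ else 0) * _ = 0
      rw [dif_neg h8, zero_mul]
    · intro b
      rw [hcc]
  intro b
  rw [← hcc b]
  exact h7 _

end Vale.Agent.P281.H383.TM
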