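import Vale.Agent.P281.H64.Gen.Main

/-!
# P281, project T-M (helper383): block M1, boundaries which are not SNC
-/

open scoped Manifold ContDiff Topology
open Set Filter Metric Module Vale.Agent.P281 Vale.Agent.P272.K
open Vale.Agent.P281.MF Vale.Agent.P281.ISO Vale.Agent.P281.ELL Vale.Agent.P281.H713
open Vale.Agent.P281.H713.TZ Vale.Agent.P281.H64.Thin

set_option linter.all false

noncomputable section

namespace Vale.Agent.P281.H383.TM

variable {n p : ℕ} {X Y : Type} [TopologicalSpace X] [ChartedSpace (Cm n) X]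
  [TopologicalSpace Y] [ChartedSpace (Cm p) Y]

/-- `∑ Δ(D) D` is an effective rational divisor (finitely many prime divisors `D`, no condition on
their intersections, and no upper bound on the coefficients). -/
structure IsBd (n : ℕ) {X : Type} [TopologicalSpace X] [ChartedSpace (Cm n) X] (Δ : Set X → ℝ) :
    Prop where
  finite : {D | Δ D ≠ 0}.Finite
  prime : ∀ D, Δ D ≠ 0 → J.IsPrime (Cm n) D
  rational : ∀ D, ∃ q : ℚ, Δ D = q ∧ 0 ≤ q

theorem IsBd.nonneg {Δ : Set X → ℝ} (h : IsBd n Δ) (D : Set X) : 0 ≤ Δ D := by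
  obtain ⟨q, hq, h0⟩ := h.rational D
  rw [hq]
  exact_mod_cast h0

theorem IsBd.den {Δ : Set X → ℝ} (h : IsBd n Δ) :
    ∃ m : ℕ, 0 < m ∧ ∃ K : Set X → ℕ, ∀ D, (K D : ℝ) = m * Δ D := by
  classical
  choose q hq h0 using h.rational
  set S := h.finite.toFinset with hS
  set m := ∏ D ∈ S, (q D).den with hm
  have hmpos : 0 < m := Finset.prod_pos fun D _ => (q D).pos
  have hK : ∀ D, ∃ k : ℕ, (k : ℝ) = m * Δ D := by
    intro D
    by_cases hD : Δ D = 0
    · exact ⟨0, by rw [hD]; simp⟩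
    · have hDS : D ∈ S := by rw [hS, Set.Finite.mem_toFinset]; exact hD
      obtain ⟨c, hc⟩ := Finset.dvd_prod_of_mem (fun D => (q D).den) hDS
      have hnum : 0 ≤ (q D).num := Rat.num_nonneg.2 (h0 D)
      refine ⟨c * (q D).num.toNat, ?_⟩
      have h2 : (((q D).num.toNat : ℕ) : ℝ) = ((q D).num : ℝ) := by
        have : (((q D).num.toNat : ℤ)) = (q D).num := Int.toNat_of_nonneg hnum
        exact_mod_cast this
      have h3 : ((q D : ℚ) : ℝ) * ((q D).den : ℝ) = ((q D).num : ℝ) := by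
        exact_mod_cast Rat.mul_den_eq_num (q D)
      push_cast
      rw [h2, hq D, ← h3]
      have h4 : (m : ℝ) = ((q D).den : ℝ) * c := by exact_mod_cast hc
      rw [h4]
      ring
  choose K hK using hK
  exact ⟨m, hmpos, K, hK⟩

variable [IsManifold 𝓘(ℂ, Cm n) ω X] [IsManifold 𝓘(ℂ, Cm p) ω Y]

/-- the pole condition in terms of other local equations -/
theorem poleId {f : X → Y} {𝒢 : Set (Set Y)} {m : ℕ} {K : Set X → ℕ} {σ : Y → ℂ}
    (hσ : TL.IsPullSection (n := n) (p := p) m K 𝒢 (id : X → X) f σ) (z₀ : X)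
    (T : Finset (Set X)) (e : Set X → X → ℂ) (hT : ∀ D, K D ≠ 0 → D ∈ T)
    (he : ∀ D ∈ T, J.IsLocalEq (Cm n) D (e D) z₀) (I : Fin m → Fin p → Fin n) :
    ∃ a : X → ℂ, J.HolAt (Cm n) a z₀ ∧ ∀ᶠ z in 𝓝 z₀, (∀ G ∈ 𝒢, f z ∉ G) →
      ∏ D ∈ T, e D z ^ K D ≠ 0 →
        σ (f z) * TL.minors (n := n) (p := p) m (id : X → X) f z₀ z I *
          ∏ D ∈ T, e D z ^ K D = a z := by
  classical
  obtain ⟨T₀, g₀, hT₀, hg₀, ha₀⟩ := hσ.pole z₀
  obtain ⟨a, ha, hae⟩ := ha₀ I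
  have hu : ∀ D, ∃ u : X → ℂ, K D ≠ 0 → HolV (Cm n) u z₀ ∧
      ∀ᶠ z in 𝓝 z₀, e D z = g₀ D z * u z := by
    intro D
    by_cases hD : K D = 0
    · exact ⟨0, fun h0 => absurd hD h0⟩
    · obtain ⟨u, h1, -, h2⟩ := leq_unit (E := Cm n) (hg₀ D (hT₀ D hD)) (he _ (hT D hD))
      exact ⟨u, fun _ => ⟨h1, h2⟩⟩
  choose u hu using hu
  set T₁ : Finset (Set X) := T.filter fun D => K D ≠ 0 with hT₁
  have hmem : ∀ D, D ∈ T₁ ↔ K D ≠ 0 := by
    intro D
    rw [hT₁, Finset.mem_filter]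
    exact ⟨fun h => h.2, fun h => ⟨hT D h, h⟩⟩
  refine ⟨fun z => a z * ∏ D ∈ T₁, u D z ^ K D, ?_, ?_⟩
  · exact HolV.mul ha (HolV.prod fun D hD => (hu D ((hmem D).1 hD)).1.pow _)
  · have h1 : ∀ᶠ z in 𝓝 z₀, ∀ D ∈ T₁, e D z = g₀ D z * u D z := by
      rw [Filter.eventually_all_finset]
      exact fun D hD => (hu D ((hmem D).1 hD)).2
    filter_upwards [h1, hae] with z h2 h3 hzG hne
    have h4 : ∏ D ∈ T₁, e D z ^ K D = ∏ D ∈ T, e D z ^ K D := by
      refine Finset.prod_subset (Finset.filter_subset _ _) fun D _ hD => ?_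
      have h5 : K D = 0 := by
        by_contra h6
        exact hD ((hmem D).2 h6)
      rw [h5, pow_zero]
    have h5 : ∏ D ∈ T₁, g₀ D z ^ K D = ∏ D ∈ T₀, g₀ D z ^ K D := by
      refine Finset.prod_subset (fun D hD => hT₀ D ((hmem D).1 hD)) fun D _ hD => ?_
      have h5 : K D = 0 := by
        by_contra h6
        exact hD ((hmem D).2 h6)
      rw [h5, pow_zero]
    have h6 : ∏ D ∈ T, e D z ^ K D = (∏ D ∈ T₀, g₀ D z ^ K D) * ∏ D ∈ T₁, u D z ^ K D := by
      rw [← h4, ← h5, ← Finset.prod_mul_distrib]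
      refine Finset.prod_congr rfl fun D hD => ?_
      rw [h2 D hD, mul_pow]
    rw [h6] at hne ⊢
    have h7 := h3 z rfl hzG (left_ne_zero_of_mul hne)
    rw [← h7]
    ring

end Vale.Agent.P281.H383.TM
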