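import Vale.Agent.P281.H383.TM.Bd

/-!
# P281, project T-M (helper383): block M1, `kodGE_G` for boundaries which are not SNC (adapted from
`H64/Gen/Core.lean`)
-/

open scoped Manifold ContDiff Topology
open Set Filter Metric Vale.Agent.P281 Vale.Agent.P272.K
open Vale.Agent.P281.MF Vale.Agent.P281.ISO Vale.Agent.P281.ELL Vale.Agent.P281.H713
open Vale.Agent.P281.H713.TZ Vale.Agent.P281.H64.Thin Vale.Agent.P281.H64.Gen

set_option linter.all false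

noncomputable section

namespace Vale.Agent.P281.H383.TM

variable {n p : ℕ} {X Y : Type} [TopologicalSpace X] [T2Space X] [ConnectedSpace X]
  [ChartedSpace (Cm n) X] [IsManifold 𝓘(ℂ, Cm n) ω X] [TopologicalSpace Y] [T2Space Y]
  [ChartedSpace (Cm p) Y] [IsManifold 𝓘(ℂ, Cm p) ω Y]
variable {E₀ : Type} [NormedAddCommGroup E₀] [NormedSpace ℂ E₀] [FiniteDimensional ℂ E₀]

/-- **Campana's inequality from relative forms, for all fibrations and all effective rational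
divisors** -/
theorem kodGE_N (hgen : GenPart) (hsl : SlicePart) (hlin : LinPart) {f : X → Y}
    (hf : ContMDiff 𝓘(ℂ, Cm n) 𝓘(ℂ, Cm p) ω f)
    {S₀ : Set Y} (hS₀ : IsSmallSet (Cm p) S₀)
    (hsub : ∀ x, f x ∉ S₀ → Function.Surjective (dM (Cm n) (Cm p) f x))
    (e₀ : Cm n ≃L[ℂ] (Cm p × E₀))
    {Δ : Set X → ℝ} (hs : IsBd n Δ) {r : ℕ}
    (hform : ∀ y, y ∉ S₀ → HasForms f S₀ e₀ Δ r y) {j₂ : ℕ}
    (h₂ : KodFGE n p Δ (id : X → X) f j₂) :
    KodGE (Cm n) (fun (D : Set X) z g => IsLocalEq (Cm n) D g z) Δ (j₂ + r) := by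
  classical
  have hs' := hs
  obtain ⟨m, KX, 𝒢₁, σN, y₁, hm, hKX, h𝒢₁f, h𝒢₁p, hpull, hy₁, ht0, hsurj⟩ := h₂
  have hfh : ∀ x, HolM (Cm n) (Cm p) f x := fun x => hf x
  have hcont : Continuous f := hf.continuous
  -- the divisors of `Y`
  have h𝒢₁p' : ∀ G ∈ 𝒢₁, IsPrimeDivisor (Cm p) G := fun G hG => h𝒢₁p G hG
  set S : Set Y := S₀ ∪ ⋃₀ 𝒢₁ with hSd
  have hSthin : IsSmallSet (Cm p) S :=
    hS₀.union (IsSmallSet.of_thin (isThinSet_sUnion h𝒢₁f h𝒢₁p'))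
  have hS𝒢 : S₀ ⊆ S := subset_union_left
  have hS𝒢₁ : ⋃₀ 𝒢₁ ⊆ S := subset_union_right
  have hSc : IsClosed S := hSthin.1
  have hSdense : Dense Sᶜ := hSthin.dense_compl
  -- the sections
  choose kb hkb hkbs using fun b : Fin (j₂ + 1) => (hpull b).mero
  set k : Set Y → ℕ := fun G => ∑ b, kb b G with hkd
  have hkG : ∀ G, k G ≠ 0 → G ∈ 𝒢₁ := by
    intro G hG
    obtain ⟨b, -, hb⟩ := Finset.exists_ne_zero_of_sum_ne_zero hG
    exact hkb b G hb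
  have hkfin : {G | k G ≠ 0}.Finite := h𝒢₁f.subset fun G hG => hkG G hG
  set t : Fin (j₂ + 1) → Y → ℂ := fun b => σN b with htd
  have ht : ∀ b, IsSection (Cm p) (fun (D : Set Y) z g => IsLocalEq (Cm p) D g z) m k (t b) :=
    fun b => isSection_mono (fun D => Finset.single_le_sum (f := fun b => kb b D)
      (fun _ _ => Nat.zero_le _) (Finset.mem_univ b)) hkfin (fun G hG => h𝒢₁p G (hkG G hG))
      (hkbs b)
  have hind : LinearIndependent ℂ (fun b : Fin j₂ =>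
      dif (Cm p) (fun w => t b.succ w / t 0 w) y₁) :=
    JB.linearIndependent_of_surjective hsurj
  have hoffY : ∀ y, (∀ G ∈ 𝒢₁, y ∉ G) → ∀ G, k G ≠ 0 →
      ∃ g, IsLocalEq (Cm p) G g y ∧ g y ≠ 0 := by
    intro y hy G hG
    obtain ⟨g, hg⟩ := (h𝒢₁p G (hkG G hG)).2.1 y
    exact ⟨g, hg, fun h0 => hy G (hkG G hG) ((show IsLocalEq (Cm p) G g y from hg).mem_iff.2 h0)⟩
  obtain ⟨y₂, hy₂⟩ := good_point ht (hoffY y₁ hy₁) ht0 hind
  -- an open set below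
  obtain ⟨V, hV1, hV2, hV3⟩ := eventually_nhds_iff.1 hy₂
  set O : Set Y := V ∩ Sᶜ with hO
  have hVne : O.Nonempty := hSdense.inter_open_nonempty _ hV2 ⟨y₂, hV3⟩
  have hOo : IsOpen O := hV2.inter hSc.isOpen_compl
  obtain ⟨y, hyO⟩ := hVne
  have hyS : y ∉ S := hyO.2
  obtain ⟨N, 𝒜, κ₀, Θ, Ξ, hN, h𝒜f, h𝒜p, hΘ', hΞ', hκ₀, x₁, hx₁y, hΘx₁, hRx₁, hRi⟩ :=
    hform y fun h => hyS (hS𝒢 h)
  have hΘ := relForm_sub hS𝒢 hΘ'
  have hΞ := fun b => relForm_sub hS𝒢 (hΞ' b)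
  have hsubS : ∀ x, f x ∉ S → Function.Surjective (dM (Cm n) (Cm p) f x) := fun x hx =>
    hsub x fun h => hx (hS𝒢 h)
  have hx₁O : f x₁ ∈ O := hx₁y ▸ hyO
  have hx₁S : f x₁ ∉ S := hx₁y ▸ hyS
  have hdo : IsOpen {x | f x ∉ S} := hSc.isOpen_compl.preimage hcont
  -- the preimage of `S` is thin
  have hthin : Cov n (f ⁻¹' S) := preimage_cov hfh ⟨x₁, hsubS x₁ hx₁S⟩ hSthin.cov
  -- the poles on `Z`
  have htPb := fun b : Fin (j₂ + 1) => poleId (n := n) (p := p) (hpull b)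
  set Kb : Fin (j₂ + 1) → Set X → ℕ := fun _ => KX with hKbd
  have hKb : ∀ b D, (Kb b D : ℝ) ≤ m * Δ D := fun _ => hKX
  obtain ⟨q₀, hq₀, K₁, hK₁⟩ := hs'.den
  have hfin : {D | Δ D ≠ 0}.Finite := hs'.finite
  have hpr' : ∀ D ∈ {D | Δ D ≠ 0} ∪ 𝒜, IsPrimeDivisor (Cm n) D := fun D hD =>
    hD.elim (hs'.prime D) (h𝒜p D)
  have hdX := dense_compl_finite (hfin.union h𝒜f) (fun D hD => (hpr' D hD).1) (fun D hD => by
    rw [dense_iff_inter_open]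
    intro U hU hUne
    obtain ⟨x, hxU, hxD⟩ := IsLocalEq.exists_notMem (hpr' D hD).2.1 hU hUne
    exact ⟨x, hxU, hxD⟩)
  set q : ℕ := N * q₀ with hqdef
  have hq : 0 < q := Nat.mul_pos hN hq₀
  -- the functions
  let ρ : Fin j₂ ⊕ Fin r → X → ℂ := Sum.elim
    (fun b : Fin j₂ => fun z => (t b.succ (f z) / t 0 (f z)) ^ q) (fun b z => Ξ b z / Θ z)
  obtain ⟨hy1, hy2, hy3, hy4⟩ := hV1 _ hx₁O.1
  have hρh : ∀ b, HolV (Cm n) (ρ b) x₁ := by
    rintro (b | b)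
    · have h1 : HolV (Cm n) (fun z => (t b.succ (f z) / t 0 (f z)) ^ q) x₁ :=
        HolV.comp (E' := Cm p) (h := fun w => (t b.succ w / t 0 w) ^ q)
          (HolV.pow (hy3 b) q) (hfh x₁)
      exact h1
    · exact hRx₁ b
  have hdρ : ∀ b : Fin j₂, dif (Cm n) (ρ (Sum.inl b)) x₁ =
      ((q : ℂ) * (t b.succ (f x₁) / t 0 (f x₁)) ^ (q - 1)) •
          (dif (Cm p) (fun w => t b.succ w / t 0 w) (f x₁)).comp (dM (Cm n) (Cm p) f x₁) := by
    intro b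
    have h1 := dif_comp (HolV.pow (hy3 b) q) (hfh x₁)
    rw [dif_pow (hy3 b)] at h1
    exact h1
  have hρi : LinearIndependent ℂ (fun b => dif (Cm n) (ρ b) x₁) := by
    have h5 : LinearIndependent ℂ (fun b : Fin j₂ =>
        (dif (Cm p) (fun w => t b.succ w / t 0 w) (f x₁)).comp (dM (Cm n) (Cm p) f x₁)) :=
      (linearIndependent_precomp (hsubS x₁ hx₁S) _).2 hy4
    have hc : ∀ b : Fin j₂, (q : ℂ) * (t b.succ (f x₁) / t 0 (f x₁)) ^ (q - 1) ≠ 0 := fun b =>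
      mul_ne_zero (by exact_mod_cast hq.ne') (pow_ne_zero _ (div_ne_zero (hy2 b) hy1))
    have h6 := h5.units_smul (fun b => Units.mk0 _ (hc b))
    rw [Fintype.linearIndependent_iff] at h6 ⊢
    intro g hg
    rw [Fintype.sum_sum_type] at hg
    have h7 : ∀ b : Fin r, g (Sum.inr b) = 0 := by
      refine hRi _ fun ξ hξ => ?_
      have h8 := congrArg (fun L : Cm n →L[ℂ] ℂ => L ξ) hg
      have h9 : (∑ b : Fin j₂, g (Sum.inl b) • dif (Cm n) (ρ (Sum.inl b)) x₁ :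
          Cm n →L[ℂ] ℂ) ξ = 0 := by
        rw [sum_apply]
        refine Finset.sum_eq_zero fun b _ => ?_
        rw [hdρ b]
        show g (Sum.inl b) • (((q : ℂ) * (t b.succ (f x₁) / t 0 (f x₁)) ^ (q - 1)) •
          (dif (Cm p) (fun w => t b.succ w / t 0 w) (f x₁)) (dM (Cm n) (Cm p) f x₁ ξ)) = 0
        rw [hξ, map_zero, smul_zero, smul_zero]
      have h10 : (∑ b : Fin j₂, g (Sum.inl b) • dif (Cm n) (ρ (Sum.inl b)) x₁ :
          Cm n →L[ℂ] ℂ) ξ +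
          (∑ b : Fin r, g (Sum.inr b) • dif (Cm n) (ρ (Sum.inr b)) x₁ : Cm n →L[ℂ] ℂ) ξ = 0 := h8
      rw [h9, zero_add, sum_apply] at h10
      exact h10
    have hg' : ∑ b : Fin j₂, g (Sum.inl b) • dif (Cm n) (ρ (Sum.inl b)) x₁ = 0 := by
      have h0 : (∑ b : Fin r, g (Sum.inr b) • dif (Cm n) (ρ (Sum.inr b)) x₁ :
          Cm n →L[ℂ] ℂ) = 0 := by
        refine Finset.sum_eq_zero fun b _ => ?_
        rw [h7 b]
        refine ContinuousLinearMap.ext fun v => ?_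
        show (0 : ℂ) * dif (Cm n) (ρ (Sum.inr b)) x₁ v = 0
        exact zero_mul _
      rw [h0, add_zero] at hg
      exact hg
    have h8 := h6 (fun b => g (Sum.inl b)) (by
      rw [← hg']
      refine Finset.sum_congr rfl fun b _ => ?_
      rw [hdρ b]
      rfl)
    rintro (b | b)
    · exact h8 b
    · exact h7 b
  obtain ⟨NN, hN1, hN2, hN3⟩ := eventually_nhds_iff.1
    ((linearIndependent_dif_eventually hρh hρi).and hΘx₁)
  obtain ⟨x, ⟨⟨hxO, hxs⟩, hxN⟩, hxD⟩ := hdX.2.inter_open_nonempty _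
    (((hOo.preimage hcont).inter hdo).inter hN2) ⟨x₁, ⟨hx₁O, hx₁S⟩, hN3⟩
  -- the sections above
  have hqm : 0 < q₀ * m := Nat.mul_pos hq₀ hm
  obtain ⟨pp, hp⟩ : ∃ pp, q₀ * m = pp + 1 := ⟨q₀ * m - 1, by omega⟩
  have hKΔ : ∀ D, ((m * (N * K₁ D) : ℕ) : ℝ) = (N * (q₀ * m) : ℕ) * Δ D := by
    intro D
    push_cast
    rw [hK₁ D]; ring
  have hκK : ∀ D, q₀ * m * κ₀ D ≤ m * (N * K₁ D) := by
    intro D
    have h1 : ((q₀ * m * κ₀ D : ℕ) : ℝ) ≤ ((m * (N * K₁ D) : ℕ) : ℝ) := by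
      push_cast
      rw [hK₁ D]
      have h2 := hκ₀ D
      have h3 : (0 : ℝ) ≤ q₀ * m := by positivity
      calc (q₀ : ℝ) * m * κ₀ D ≤ q₀ * m * (N * Δ D) := by gcongr
        _ = m * (N * (q₀ * Δ D)) := by ring
    exact_mod_cast h1
  have hKK : ∀ b D, q * Kb b D ≤ m * (N * K₁ D) := by
    intro b D
    have h1 : ((q * Kb b D : ℕ) : ℝ) ≤ ((m * (N * K₁ D) : ℕ) : ℝ) := by
      push_cast
      rw [hK₁ D, hqdef]
      push_cast
      have h2 := hKb b D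
      have h3 : (0 : ℝ) ≤ N * q₀ := by positivity
      calc (N : ℝ) * q₀ * Kb b D ≤ N * q₀ * (m * Δ D) := by gcongr
        _ = m * (N * (q₀ * Δ D)) := by ring
    exact_mod_cast h1
  have hform₀ : RelForm f S e₀ (N * (q₀ * m)) 𝒜 (fun D => m * (N * K₁ D))
      (fun z => Θ z ^ (q₀ * m)) := (hΘ.pow (q₀ * m)).mono hκK
  have hform₁ : ∀ b, RelForm f S e₀ (N * (q₀ * m)) 𝒜 (fun D => m * (N * K₁ D))
      (fun z => Θ z ^ pp * Ξ b z) := fun b =>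
    (((hΘ.pow pp).mul (hΞ b)).congr (N' := N * (q₀ * m)) (by rw [hp]; ring)
      (κ' := fun D => q₀ * m * κ₀ D) (fun D => by rw [hp]; ring) (fun x => rfl)).mono hκK
  have hmq : N * (q₀ * m) = m * q := by rw [hqdef]; ring
  have hn : 0 < N * (q₀ * m) := Nat.mul_pos hN hqm
  have hKfin : {D | m * (N * K₁ D) ≠ 0}.Finite := hfin.subset fun D hD h0 => by
    apply hD
    have h1 := hK₁ D
    rw [h0, mul_zero] at h1
    have h2 : K₁ D = 0 := by exact_mod_cast h1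
    rw [h2]; simp
  have hKpr : ∀ D, m * (N * K₁ D) ≠ 0 → IsPrimeDivisor (Cm n) D := fun D hD =>
    hs'.prime D fun h0 => by
      apply hD
      have h1 := hK₁ D
      rw [h0, mul_zero] at h1
      have h2 : K₁ D = 0 := by exact_mod_cast h1
      rw [h2]; simp
  have htS : ∀ b y, y ∉ S → ∃ bY : Y → ℂ, HolV (Cm p) bY y ∧ ∀ᶠ y' in 𝓝 y,
      t b y' ^ q = bY y' * jac (Cm p) (chartAt (Cm p) y : Y → Cm p) y' ^ (N * (q₀ * m)) := by
    intro b y hy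
    obtain ⟨A, hA, hAe⟩ := _root_.Vale.Agent.P281.section_local (ht b) (hoffY y fun G hG hyG =>
      hy (hS𝒢₁ ⟨G, hG, hyG⟩))
    refine ⟨fun y => A y ^ q, hA.pow q, ?_⟩
    filter_upwards [hAe] with y' h1
    rw [h1, mul_pow, ← pow_mul, hmq]
  have hlift : ∀ (b : Fin (j₂ + 1)) (Θ' : X → ℂ),
      RelForm f S e₀ (N * (q₀ * m)) 𝒜 (fun D => m * (N * K₁ D)) Θ' → ∃ σ : X → ℂ,
      IsSection (Cm n) (fun (D : Set X) z g => IsLocalEq (Cm n) D g z) (N * (q₀ * m))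
        (fun D => m * (N * K₁ D)) σ ∧
        ∀ z, f z ∉ S → (∀ D ∈ 𝒜, z ∉ D) → σ z = t b (f z) ^ q * Θ' z := by
    intro b Θ' hΘ''
    refine liftG hgen hsl hlin hfh hSc hsubS e₀ hthin hn h𝒜f h𝒜p hΘ'' hKfin hKpr
      (t := fun y => t b y ^ q) (htS b) (K₁ := fun D => q * Kb b D) (hKK b)
      (pole_pow (f := f) (S := S) (t := t b) (K := Kb b) ?_ hq hmq)
    intro z₀ T e hT he I
    obtain ⟨a, ha, hae⟩ := htPb b z₀ T e hT he I
    refine ⟨a, ha, ?_⟩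
    filter_upwards [hae] with z h1 h2 h3
    exact h1 (fun G hG hzG => h2 (hS𝒢₁ ⟨G, hG, hzG⟩)) h3
  choose σ hσs hσv using fun b : Fin (j₂ + 1) => hlift b _ hform₀
  choose σ' hσ's hσ'v using fun b : Fin r => hlift 0 _ (hform₁ b)
  have hev : ∀ᶠ z in 𝓝 x, f z ∈ O ∧ Θ z ≠ 0 ∧
      (∀ b, σ b z = t b (f z) ^ q * Θ z ^ (q₀ * m)) ∧
      ∀ b, σ' b z = t 0 (f z) ^ q * (Θ z ^ pp * Ξ b z) := by
    filter_upwards [(hOo.preimage hcont).mem_nhds hxO, hdo.mem_nhds hxs, hN2.mem_nhds hxN,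
      hdX.1.mem_nhds hxD] with z h1 h2 h3 h4
    have h5 : ∀ D ∈ 𝒜, z ∉ D := fun D hD => h4 D (Or.inr hD)
    exact ⟨h1, (hN1 z h3).2, fun b => hσv b z h2 h5, fun b => hσ'v b z h2 h5⟩
  let s : Fin j₂ ⊕ Fin r → X → ℂ := Sum.elim (fun b => σ b.succ) σ'
  have hrat : ∀ b, (fun z => s b z / σ 0 z) =ᶠ[𝓝 x] ρ b := by
    rintro (b | b)
    · filter_upwards [hev] with z hz
      have h1 : t 0 (f z) ^ q ≠ 0 := pow_ne_zero _ (hV1 _ hz.1.1).1
      have h2 : Θ z ^ (q₀ * m) ≠ 0 := pow_ne_zero _ hz.2.1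
      show σ b.succ z / σ 0 z = (t b.succ (f z) / t 0 (f z)) ^ q
      rw [hz.2.2.1, hz.2.2.1, mul_div_mul_right _ _ h2, div_pow]
    · filter_upwards [hev] with z hz
      have h1 : t 0 (f z) ^ q ≠ 0 := pow_ne_zero _ (hV1 _ hz.1.1).1
      have h2 : Θ z ≠ 0 := hz.2.1
      show σ' b z / σ 0 z = Ξ b z / Θ z
      rw [hz.2.2.1, hz.2.2.2, hp, pow_succ]
      field_simp
  refine kodGE_of_fintype (P := Fin j₂ ⊕ Fin r) hn (k := fun D => m * (N * K₁ D)) hKΔ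
    (s₀ := σ 0) (s := s) (z := x) (hσs 0) ?_ ?_ ?_ ?_ (by simp)
  · rintro (b | b)
    · exact hσs _
    · exact hσ's _
  · intro D hD
    have hΔ : Δ D ≠ 0 := by
      intro h0
      have h1 := hK₁ D
      rw [h0, mul_zero] at h1
      exact right_ne_zero_of_mul (right_ne_zero_of_mul hD) (by exact_mod_cast h1)
    obtain ⟨g, hg⟩ := (hs'.prime D hΔ).2.1 x
    exact ⟨g, hg, fun h0 => hxD D (Or.inl hΔ)
      ((show IsLocalEq (Cm n) D g x from hg).mem_iff.2 h0)⟩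
  · rw [hev.self_of_nhds.2.2.1]
    exact mul_ne_zero (pow_ne_zero _ (hV1 _ hxO.1).1) (pow_ne_zero _ hev.self_of_nhds.2.1)
  · have hfun : (fun b : Fin j₂ ⊕ Fin r => dif (Cm n) (fun w => s b w / σ 0 w) x) =
        fun b => dif (Cm n) (ρ b) x := by
      funext b
      exact dV_congr (hrat b)
    rw [hfun]
    exact (hN1 x hxN).1

end Vale.Agent.P281.H383.TM
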