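import Vale.Agent.P281.H383.TM.Graph

/-!
# P281, project T-M (helper383): block M1, prime divisors are étale over `Y` and disjoint off a small
set (no SNC)
-/

open Set Filter Metric Vale.Agent.P281 Vale.Agent.P281.H713 Vale.Agent.P281.H64
open Vale.Agent.P281.H64.Thin (IsThinSet)
open scoped Topology ContDiff Manifold

set_option linter.all false

noncomputable section

namespace Vale.Agent.P281.H383.TM

open Vale.Agent.P281.H64.Gen Vale.Agent.P281.H399.Gen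

/-- a smooth hypersurface contained in `D` is `D` at general points -/
theorem loc_smooth {n : ℕ} {X : Type} [TopologicalSpace X] [ChartedSpace (Cm n) X]
    [IsManifold 𝓘(ℂ, Cm n) ω X] {D : Set X} {g e : X → ℂ} {x : X}
    (hg : J.IsLocalEq (Cm n) D g x) (he : J.HolAt (Cm n) e x) (he0 : e x = 0)
    (hde : J.dif (Cm n) e x ≠ 0) (hsub : ∀ᶠ z in 𝓝 x, e z = 0 → z ∈ D) {N : Set X}
    (hN : N ∈ 𝓝 x) :
    ∃ y ∈ N, e y = 0 ∧ J.HolAt (Cm n) e y ∧ J.dif (Cm n) e y ≠ 0 ∧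
      ∀ᶠ z in 𝓝 y, z ∈ D ↔ e z = 0 := by
  obtain ⟨m, w, hw, hev, hw0⟩ := H511.Gen.exists_pow_mul he he0 hde
    (H511.Gen.isLocalEq_holAt hg) (H511.Gen.isLocalEq_not_zero hg)
  obtain ⟨y, hy, hy2⟩ := (Filter.not_eventually.1 hw0).and_eventually
    ((((hev.and (H511.Gen.isLocalEq_mem_iff hg)).and hsub).eventually_nhds.and
      (((H511.Gen.eventually_dif_ne he hde).and (H511.Gen.holAt_eventually hw)).and
        (H511.Gen.holAt_eventually he))).and hN)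
    |>.exists
  obtain ⟨⟨hy3, ⟨hy4, hy5⟩, hy6⟩, hyN⟩ := hy2
  rw [Classical.not_imp] at hy
  have hm : 0 < m := by
    rcases Nat.eq_zero_or_pos m with rfl | hm
    · exfalso
      have h0 := hy3.self_of_nhds
      have h1 := h0.1.1
      rw [pow_zero, one_mul, h0.1.2.1 (h0.2 hy.1)] at h1
      exact hy.2 h1.symm
    · exact hm
  have h7 : ∀ᶠ y' in 𝓝 y, w y' ≠ 0 :=
    (show HolV (Cm n) w y from hy5).continuousAt.eventually_ne hy.2
  refine ⟨y, hyN, hy.1, hy6, hy4, ?_⟩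
  filter_upwards [hy3, h7] with y' h9 h10
  rw [h9.1.2, h9.1.1, mul_eq_zero, or_iff_left h10, pow_eq_zero_iff hm.ne']

/-- **V5 without SNC** -/
theorem etaleN (himg : ImgStmt) {p : ℕ} {X Y : Type} [TopologicalSpace X] [T2Space X]
    [CompactSpace X] [ChartedSpace (Cm (p + 1)) X] [IsManifold 𝓘(ℂ, Cm (p + 1)) ω X]
    [TopologicalSpace Y] [T2Space Y] [ChartedSpace (Cm p) Y] [IsManifold 𝓘(ℂ, Cm p) ω Y]
    {f : X → Y} (hf : ContMDiff 𝓘(ℂ, Cm (p + 1)) 𝓘(ℂ, Cm p) ω f) {Δ : Set X → ℝ}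
    (hfin : {D | Δ D ≠ 0}.Finite) (hprime : ∀ D, Δ D ≠ 0 → J.IsPrime (Cm (p + 1)) D) :
    ∃ S : Set Y, IsSmallSet (Cm p) S ∧ ∀ S', S ⊆ S' → IsEtale (n := p + 1) (p := p) f S' Δ := by
  have hg : ∀ x D, ∃ g : X → ℂ, Δ D ≠ 0 → IsLocalEq (Cm (p + 1)) D g x := by
    intro x D
    by_cases hD : Δ D ≠ 0
    · obtain ⟨g, hg⟩ := (hprime D hD).2.1 x
      exact ⟨g, fun _ => hg⟩
    · exact ⟨0, fun h => absurd h hD⟩
  choose g hg using hg
  have hfin' : Finite {D // Δ D ≠ 0} := hfin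
  classical
  set A : {D // Δ D ≠ 0} × {D // Δ D ≠ 0} → Set X := fun q =>
    if q.1 = q.2 then Bad p f q.1.1 else q.1.1 ∩ q.2.1 with hA
  have han : ∀ q, IsAnalyticSet (Cm (p + 1)) (A q) := by
    rintro ⟨⟨D, hD⟩, ⟨D', hD'⟩⟩
    by_cases h : (⟨D, hD⟩ : {D // Δ D ≠ 0}) = ⟨D', hD'⟩
    · have : A (⟨D, hD⟩, ⟨D', hD'⟩) = Bad p f D := if_pos h
      rw [this]
      exact analytic_bad hf (hprime D hD).2.1
    · have : A (⟨D, hD⟩, ⟨D', hD'⟩) = D ∩ D' := if_neg h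
      rw [this]
      exact analytic_inter (hprime D hD).2.1 (hprime D' hD').2.1
  have hclosed : ∀ q, IsClosed (A q) := fun q => H511.Gen.isAnalyticSet_isClosed (han q)
  have hthin : ∀ q, ∃ H : ℕ → Set Y, (∀ k, IsThinSet (Cm p) (H k)) ∧ f '' A q ⊆ ⋃ k, H k := by
    rintro ⟨⟨D, hD⟩, ⟨D', hD'⟩⟩
    refine himg (p + 1) p X Y f _ hf (han _) ?_
    intro m φ hφ v hv hsj
    obtain ⟨e, he, he0, hde, hsub, hnd⟩ := exists_graph hf hv hφ hsj
    by_cases h : (⟨D, hD⟩ : {D // Δ D ≠ 0}) = ⟨D', hD'⟩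
    · have hAq : A (⟨D, hD⟩, ⟨D', hD'⟩) = Bad p f D := if_pos h
      rw [hAq] at hsub
      obtain ⟨y, ⟨hy1, hy2⟩, hy3, hy4, hy5, hy6⟩ := loc_smooth (hg (φ v) D hD) he he0 hde
        (hsub.mono fun z hz h0 => (hz h0).1) (hsub.and hnd)
      obtain ⟨hyD, g', hg', ξ, hξ, h5, h6⟩ := hy1 hy3
      obtain ⟨w, hw, hw0, hev⟩ := H511.Gen.exists_unit hy4 hy3 hy5 hy6 hg'
      apply hξ
      refine hy2 ξ h5 ?_
      have h7 : g' =ᶠ[𝓝 y] fun z => w z • e z := by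
        filter_upwards [hev] with z hz
        rw [hz, smul_eq_mul, mul_comm]
      have h8 : dV (Cm (p + 1)) g' y = dV (Cm (p + 1)) (fun z => w z • e z) y := by
        unfold dV
        rw [h7.mfderiv_eq]
      rw [h8, dV_smul hw hy4, hy3] at h6
      have h9 : (w y • dV (Cm (p + 1)) e y + (dV (Cm (p + 1)) w y).smulRight (0 : ℂ)) ξ = 0 := h6
      have h10 : w y * dV (Cm (p + 1)) e y ξ = 0 := by
        simpa using h9
      exact (mul_eq_zero.1 h10).resolve_left hw0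
    · have hAq : A (⟨D, hD⟩, ⟨D', hD'⟩) = D ∩ D' := if_neg h
      rw [hAq] at hsub
      obtain ⟨y, hy1, hy3, hy4, hy5, hy6⟩ := loc_smooth (hg (φ v) D hD) he he0 hde
        (hsub.mono fun z hz h0 => (hz h0).1) (hsub.eventually_nhds)
      apply h
      apply Subtype.ext
      refine H511.Gen.prime_eq_of_subset (hprime D hD) (hprime D' hD') ?_
      refine H511.Gen.subset_of_eventually (hprime D hD)
        (H511.Gen.isAnalyticSet_prime (hprime D' hD')) (H511.Gen.mem_sm hy4 hy3 hy5 hy6) ?_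
      have hy1' : ∀ᶠ z in 𝓝 y, e z = 0 → z ∈ D ∩ D' := hy1
      filter_upwards [hy6, hy1'] with z h7 h8 h9
      exact (h8 (h7.1 h9)).2
  refine ⟨⋃ q, f '' A q, ⟨?_, thin_iUnion hthin⟩, fun S' hS' => ⟨?_, ?_⟩⟩
  · refine isClosed_iUnion_of_finite fun q => ?_
    exact ((hclosed q).isCompact.image hf.continuous).isClosed
  · intro D hD x hx hxS
    refine ⟨g x D, hg x D hD.1, fun ξ h1 h2 => ?_⟩
    by_contra hξ
    apply hxS
    refine hS' (mem_iUnion.2 ⟨(⟨D, hD.1⟩, ⟨D, hD.1⟩), x, ?_, rfl⟩)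
    have hAq : A (⟨D, hD.1⟩, ⟨D, hD.1⟩) = Bad p f D := if_pos rfl
    rw [hAq]
    exact ⟨hx, g x D, hg x D hD.1, ξ, hξ, h1, h2⟩
  · intro D hD D' hD' hne x hx
    refine hS' (mem_iUnion.2 ⟨(⟨D, hD.1⟩, ⟨D', hD'.1⟩), x, ?_, rfl⟩)
    have hAq : A (⟨D, hD.1⟩, ⟨D', hD'.1⟩) = D ∩ D' :=
      if_neg fun h => hne (congrArg Subtype.val h)
    rw [hAq]
    exact hx

end Vale.Agent.P281.H383.TM
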