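import Vale.Agent.P281.H383.TM.One
import Vale.Agent.P281.H383.TM.Etale
import Vale.Agent.P281.H511.Gen.TVFin

/-!
# P281, project T-M (helper383): block M1, Campana's inequality in relative dimension one for
effective rational divisors which are not SNC
-/

open Set Filter Metric Vale.Agent.P281 Vale.Agent.P281.H713 Vale.Agent.P281.H64
open Vale.Agent.P281.H64.Gen
open Vale.Agent.P281.H64.Thin (IsThinSet)
open Vale.Agent.P281.H713.TZ.S (kodF_eq)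
open scoped Topology ContDiff Manifold

noncomputable section

namespace Vale.Agent.P281.H383.TM

/-- monotonicity of `kodF` in the boundary -/
theorem kodF_mono {n p : ℕ} {X Z Y : Type} [TopologicalSpace X] [ChartedSpace (Cm n) X]
    [TopologicalSpace Z] [ChartedSpace (Cm n) Z] [TopologicalSpace Y] [ChartedSpace (Cm p) Y]
    {Δ Δ' : Set X → ℝ} (h : ∀ D, Δ D ≤ Δ' D) (j : Z → X) (f : Z → Y) :
    TZ.S.kodF n p Δ j f ≤ TZ.S.kodF n p Δ' j f := by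
  rw [kodF_eq, kodF_eq]
  unfold TL.kodF
  refine iSup_mono fun l => iSup_mono' fun hl => ?_
  obtain ⟨m, K, 𝒢, σ, y, hm, hK, hr⟩ := hl
  exact ⟨⟨m, K, 𝒢, σ, y, hm, fun D => (hK D).trans (by
    have h1 := h D
    gcongr), hr⟩, le_rfl⟩

/-- **M1** -/
theorem genN {p : ℕ} {E₀ : Type} [NormedAddCommGroup E₀] [NormedSpace ℂ E₀]
    [FiniteDimensional ℂ E₀] (hE₀ : Module.finrank ℂ E₀ = 1) {X Y : Type} [TopologicalSpace X]
    [T2Space X] [CompactSpace X] [ConnectedSpace X]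
    [ChartedSpace (Cm (p + 1)) X] [IsManifold 𝓘(ℂ, Cm (p + 1)) ω X] [TopologicalSpace Y]
    [T2Space Y] [ChartedSpace (Cm p) Y] [IsManifold 𝓘(ℂ, Cm p) ω Y] (f : X → Y)
    (Γ : Set X → ℝ) (hf : ContMDiff 𝓘(ℂ, Cm (p + 1)) 𝓘(ℂ, Cm p) ω f)
    (hc : ∀ y, IsConnected (f ⁻¹' {y})) (hΓ : IsBd (p + 1) Γ)
    (hle : ∀ D, 1 < Γ D → ∃ S : Set Y, IsSmallSet (Cm p) S ∧ D ⊆ f ⁻¹' S) :
    ∃ H : ℕ → Set Y, (∀ k, IsThinSet (Cm p) (H k)) ∧ ∀ y, (∀ k, y ∉ H k) →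
      ∀ (F : Type) [TopologicalSpace F] [ChartedSpace E₀ F] (i : F → X),
        H511.Surf.IsFibre (Cm (p + 1)) E₀ f y i →
        TZ.S.kodR (Cm (p + 1)) E₀ i Γ + TZ.S.kodF (p + 1) p Γ (id : X → X) f ≤
          TZ.S.kodX (Cm (p + 1)) Γ := by
  have hsurj : Function.Surjective f := fun y => (hc y).nonempty
  have : PreconnectedSpace Y := by
    rw [preconnectedSpace_iff_univ, ← hsurj.range_eq]
    exact isPreconnected_range hf.continuous
  obtain ⟨S₁, hS₁, hP⟩ := H364.crit H150.Gen.img (p + 1) p X Y f hf hc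
  obtain ⟨S₂, hS₂, hE⟩ := etaleN H150.Gen.img hf hΓ.finite hΓ.prime
  have hex : ∀ D, ∃ S : Set Y, 1 < Γ D → IsSmallSet (Cm p) S ∧ D ⊆ f ⁻¹' S := by
    intro D
    by_cases h1 : 1 < Γ D
    · obtain ⟨S, hS⟩ := hle D h1
      exact ⟨S, fun _ => hS⟩
    · exact ⟨∅, fun h => absurd h h1⟩
  choose SD hSD using hex
  have hfin3 : {D | 1 < Γ D}.Finite := hΓ.finite.subset fun D (hD : 1 < Γ D) h0 => by
    rw [h0] at hD
    exact absurd hD (by norm_num)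
  obtain ⟨S₃, hS₃, hS₃'⟩ : ∃ S : Set Y, IsSmallSet (Cm p) S ∧
      ∀ D, 1 < Γ D → D ⊆ f ⁻¹' S := by
    refine ⟨⋃ D ∈ {D | 1 < Γ D}, SD D, IsSmallSet.biUnion hfin3 fun D hD => (hSD D hD).1,
      fun D hD => ?_⟩
    refine (hSD D hD).2.trans (preimage_mono ?_)
    intro y hy
    exact mem_biUnion (show D ∈ {D | 1 < Γ D} from hD) hy
  obtain ⟨S, hSd⟩ : ∃ S, S = S₁ ∪ S₂ ∪ S₃ := ⟨_, rfl⟩
  have hS : IsSmallSet (Cm p) S := by
    rw [hSd]
    exact (hS₁.union hS₂).union hS₃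
  have h1 : IsProperFibration (n := p + 1) (p := p) f S :=
    hP S (by rw [hSd, union_assoc]; exact subset_union_left) hS.1
  have h2 : IsEtale (n := p + 1) (p := p) f S Γ :=
    hE S (by rw [hSd]; exact subset_union_right.trans subset_union_left)
  have h3 : ∀ D ∈ horizontal f S Γ, Γ D ≤ 1 := by
    intro D hD
    by_contra h4
    apply hD.2
    refine (hS₃' D (not_le.1 h4)).trans (preimage_mono ?_)
    rw [hSd]
    exact subset_union_right
  have hco := (H383.Gen.compl p Y S hS).2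
  have hfam : IsFamilyOfCurves (Cm (p + 1)) (Cm p) f S Γ :=
    H511.td p X Y f S Γ hf h1 hco hΓ.finite (fun D hD => (hΓ.prime D hD).1) h2
  obtain ⟨H, hH, hSH⟩ := hS.2
  refine ⟨H, hH, ?_⟩
  intro y hyH F _ _ i hi
  obtain ⟨_, _, _, hi, hinj, hiy⟩ := hi
  have hyS : y ∉ S := by
    intro h
    obtain ⟨k, hk⟩ := mem_iUnion.1 (hSH h)
    exact hyH k hk
  rw [kodF_eq]
  exact main_oneN rfl hE₀ f hf S hS Γ hΓ h3 hfam i hi hinj hyS hiy

/-- an SNC boundary is one -/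
theorem IsBd.of_snc {n : ℕ} {X : Type} [TopologicalSpace X] [ChartedSpace (Cm n) X]
    {Δ : Set X → ℝ} (h : J.IsSNC (Cm n) Δ) : IsBd n Δ :=
  ⟨h.1, h.2.1, fun D => by
    obtain ⟨q, h1, h2, -⟩ := h.2.2.1 D
    exact ⟨q, h1, h2⟩⟩

end Vale.Agent.P281.H383.TM
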