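import Vale.Agent.P281.H399.Gen.Etale
import Vale.Agent.P281.H511.Gen.Prime

/-!
# P281, project T-M (helper383): block M1, analytic sets containing a local section of `f`
-/

open Set Filter Metric Vale.Agent.P281 Vale.Agent.P281.H713 Vale.Agent.P281.H64
open Vale.Agent.P281.H64.Thin (IsThinSet)
open scoped Topology ContDiff Manifold

set_option linter.all false

noncomputable section

namespace Vale.Agent.P281.H383.TM

open Vale.Agent.P281.H64.Gen Vale.Agent.P281.H399.Gen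

theorem local_section {m p : ℕ} {F : Cm m → Cm p} {v : Cm m} (hF : ContDiffAt ℂ ω F v)
    (hs : Function.Surjective (fderiv ℂ F v)) :
    ∃ S : Cm p → Cm m, ContDiffAt ℂ ω S (F v) ∧ S (F v) = v ∧ ∀ᶠ y in 𝓝 (F v), F (S y) = y := by
  obtain ⟨s, hs'⟩ := (fderiv ℂ F v : Cm m →ₗ[ℂ] Cm p).exists_rightInverse_of_surjective
    (LinearMap.range_eq_top.2 hs)
  set s' : Cm p →L[ℂ] Cm m := LinearMap.toContinuousLinearMap s with hs'd
  set G : Cm p → Cm p := fun y => F (v + s' y) with hGd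
  have h0 : v + s' 0 = v := by simp
  have hFc : ContDiffAt ℂ ω F (v + s' 0) := by rw [h0]; exact hF
  have ha : ContDiffAt ℂ ω (fun y : Cm p => v + s' y) 0 :=
    contDiffAt_const.add s'.contDiff.contDiffAt
  have hG : ContDiffAt ℂ ω G 0 := ContDiffAt.comp (0 : Cm p) hFc ha
  have hGd : HasFDerivAt G ((ContinuousLinearEquiv.refl ℂ (Cm p) : Cm p ≃L[ℂ] Cm p) :
      Cm p →L[ℂ] Cm p) 0 := by
    have h1 : HasFDerivAt F (fderiv ℂ F v) (v + s' 0) := by
      rw [h0]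
      exact (hF.differentiableAt (by simp)).hasFDerivAt
    have h2 : HasFDerivAt (fun y : Cm p => v + s' y) s' 0 := s'.hasFDerivAt.const_add v
    have h3 := h1.comp (0 : Cm p) h2
    have h4 : (fderiv ℂ F v).comp s' = ((ContinuousLinearEquiv.refl ℂ (Cm p) :
        Cm p ≃L[ℂ] Cm p) : Cm p →L[ℂ] Cm p) :=
      ContinuousLinearMap.ext fun y => LinearMap.congr_fun hs' y
    rw [h4] at h3
    exact h3
  have hG0 : G 0 = F v := by
    show F (v + s' 0) = F v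
    rw [h0]
  refine ⟨fun y => v + s' (hG.localInverse hGd (by simp) y), ?_, ?_, ?_⟩
  · rw [← hG0]
    exact contDiffAt_const.add (s'.contDiff.contDiffAt.comp _ (hG.to_localInverse hGd (by simp)))
  · rw [← hG0]
    show v + s' (hG.localInverse hGd (by simp) (G 0)) = v
    rw [hG.localInverse_apply_image hGd (by simp), h0]
  · rw [← hG0]
    exact (hG.hasStrictFDerivAt' hGd (by simp)).eventually_right_inverse

theorem local_inj {p : ℕ} {Φ : Cm (p + 1) → Cm p × ℂ} {a : Cm (p + 1)}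
    (hΦ : ContDiffAt ℂ ω Φ a) (hi : Function.Injective (fderiv ℂ Φ a)) :
    ∃ N ∈ 𝓝 a, InjOn Φ N := by
  have hsj : Function.Surjective (fderiv ℂ Φ a : Cm (p + 1) →ₗ[ℂ] (Cm p × ℂ)) :=
    (LinearMap.injective_iff_surjective_of_finrank_eq_finrank (by simp)).1 hi
  let e : Cm (p + 1) ≃L[ℂ] (Cm p × ℂ) := (LinearEquiv.ofBijective
    (fderiv ℂ Φ a : Cm (p + 1) →ₗ[ℂ] (Cm p × ℂ)) ⟨hi, hsj⟩).toContinuousLinearEquiv
  have h1 : HasFDerivAt Φ (e : Cm (p + 1) →L[ℂ] (Cm p × ℂ)) a := by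
    have h2 : (e : Cm (p + 1) →L[ℂ] (Cm p × ℂ)) = fderiv ℂ Φ a :=
      ContinuousLinearMap.ext fun _ => rfl
    rw [h2]
    exact (hΦ.differentiableAt (by simp)).hasFDerivAt
  exact ⟨(hΦ.toOpenPartialHomeomorph Φ h1 (by simp)).source,
    (hΦ.toOpenPartialHomeomorph Φ h1 (by simp)).open_source.mem_nhds
      (hΦ.mem_toOpenPartialHomeomorph_source h1 (by simp)),
    (hΦ.toOpenPartialHomeomorph Φ h1 (by simp)).injOn⟩

theorem exists_compl {p : ℕ} {A : Cm (p + 1) →L[ℂ] Cm p} (hA : Function.Surjective A) :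
    ∃ l : Cm (p + 1) →L[ℂ] ℂ, (∀ ξ, A ξ = 0 → l ξ = 0 → ξ = 0) ∧ ∃ ξ, ξ ≠ 0 ∧ A ξ = 0 := by
  have h1 : Module.finrank ℂ (LinearMap.ker (A : Cm (p + 1) →ₗ[ℂ] Cm p)) = 1 := by
    have h2 := LinearMap.finrank_range_add_finrank_ker (A : Cm (p + 1) →ₗ[ℂ] Cm p)
    rw [LinearMap.range_eq_top.2 hA, finrank_top] at h2
    simp only [Module.finrank_fintype_fun_eq_card, Fintype.card_fin] at h2
    omega
  obtain ⟨⟨ξ₀, hξ₀⟩, hne, hsp⟩ := finrank_eq_one_iff'.1 h1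
  have hne' : ξ₀ ≠ 0 := fun h => hne (Subtype.ext h)
  obtain ⟨k, hk⟩ : ∃ k, ξ₀ k ≠ 0 := by
    by_contra hcon
    push Not at hcon
    exact hne' (funext hcon)
  refine ⟨ContinuousLinearMap.proj (R := ℂ) (φ := fun _ : Fin (p + 1) => ℂ) k, ?_,
    ξ₀, hne', hξ₀⟩
  intro ξ hξ hl
  obtain ⟨c, hc⟩ := hsp ⟨ξ, hξ⟩
  have hc' : c • ξ₀ = ξ := congrArg Subtype.val hc
  have h3 : ξ k = 0 := hl
  rw [← hc', Pi.smul_apply, smul_eq_mul, mul_eq_zero, or_iff_left hk] at h3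
  rw [← hc', h3, zero_smul]

/-- a chart has a bijective differential -/
theorem bij_chart {n : ℕ} {X : Type} [TopologicalSpace X] [ChartedSpace (Cm n) X]
    [IsManifold 𝓘(ℂ, Cm n) ω X] {x₀ x : X} (hx : x ∈ (chartAt (Cm n) x₀).source) :
    Function.Bijective (dV (Cm n) (chartAt (Cm n) x₀ : X → Cm n) x) := by
  have hdet : (dV (Cm n) (chartAt (Cm n) x₀ : X → Cm n) x).det ≠ 0 := jac_chart_ne_zero hx
  exact (LinearMap.equivOfDetNeZero ((dV (Cm n) (chartAt (Cm n) x₀ : X → Cm n) x :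
    Cm n →L[ℂ] Cm n) : Cm n →ₗ[ℂ] Cm n) hdet).bijective

variable {p : ℕ} {X Y : Type} [TopologicalSpace X] [ChartedSpace (Cm (p + 1)) X]
  [IsManifold 𝓘(ℂ, Cm (p + 1)) ω X] [TopologicalSpace Y] [ChartedSpace (Cm p) Y]
  [IsManifold 𝓘(ℂ, Cm p) ω Y]

/-- a set containing the image of `φ`, with `f ∘ φ` submersive, contains a smooth hypersurface
which is étale over `Y` -/
theorem exists_graph {f : X → Y} (hf : ContMDiff 𝓘(ℂ, Cm (p + 1)) 𝓘(ℂ, Cm p) ω f)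
    {A : Set X} {m : ℕ} {φ : Cm m → X} {v : Cm m} (hv : v ∈ ball (0 : Cm m) 1)
    (hφ : ∀ v ∈ ball (0 : Cm m) 1, ContMDiffAt 𝓘(ℂ, Cm m) 𝓘(ℂ, Cm (p + 1)) ω φ v ∧ φ v ∈ A)
    (hs : Function.Surjective (mfderiv 𝓘(ℂ, Cm m) 𝓘(ℂ, Cm p) (fun v => f (φ v)) v)) :
    ∃ e : X → ℂ, J.HolAt (Cm (p + 1)) e (φ v) ∧ e (φ v) = 0 ∧
      J.dif (Cm (p + 1)) e (φ v) ≠ 0 ∧ (∀ᶠ z in 𝓝 (φ v), e z = 0 → z ∈ A) ∧
      ∀ᶠ z in 𝓝 (φ v), ∀ ξ : Cm (p + 1), dM (Cm (p + 1)) (Cm p) f z ξ = 0 →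
        dV (Cm (p + 1)) e z ξ = 0 → ξ = 0 := by
  obtain ⟨x, hx⟩ : ∃ x, x = φ v := ⟨_, rfl⟩
  set χ := chartAt (Cm p) (f x) with hχ
  set κ := chartAt (Cm (p + 1)) x with hκ
  have hxκ : x ∈ κ.source := mem_chart_source _ x
  have hfχ : f x ∈ χ.source := mem_chart_source _ (f x)
  have hχf : HolV (Cm (p + 1)) (fun z => χ (f z)) x := HolV.comp (E' := Cm p) (HolV.chart hfχ) (hf x)
  have hκh : HolV (Cm (p + 1)) (fun z => κ z) x := HolV.chart hxκ
  have hφv : ContMDiffAt 𝓘(ℂ, Cm m) 𝓘(ℂ, Cm (p + 1)) ω φ v := (hφ v hv).1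
  have hFh : HolV (Cm m) (fun w => χ (f (φ w))) v :=
    HolV.comp (E' := Cm (p + 1)) (h := fun z => χ (f z)) (hx ▸ hχf) hφv
  have hfφ : HolM (Cm m) (Cm p) (fun w => f (φ w)) v := (hf (φ v)).comp v hφv
  obtain ⟨F, hFd⟩ : ∃ F : Cm m → Cm p, F = fun w => χ (f (φ w)) := ⟨_, rfl⟩
  have hFc : ContDiffAt ℂ ω F v := by
    rw [hFd]
    exact contMDiffAt_iff_contDiffAt.1 hFh
  have hFs : Function.Surjective (fderiv ℂ F v) := by
    have h1 : dV (Cm m) (fun w => χ (f (φ w))) v =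
        (dV (Cm p) (χ : Y → Cm p) (f (φ v))).comp (dM (Cm m) (Cm p) (fun w => f (φ w)) v) :=
      dV_comp (E' := Cm p) (h := fun y => χ y) (by
        show HolV (Cm p) (fun y => χ y) (f (φ v))
        rw [← hx]
        exact HolV.chart hfχ) hfφ
    have h2 : fderiv ℂ F v = dV (Cm m) (fun w => χ (f (φ w))) v := by
      rw [hFd]
      exact mfderiv_eq_fderiv.symm
    have h3 : Function.Surjective (dV (Cm p) (χ : Y → Cm p) (f (φ v))) := by
      rw [← hx]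
      exact (bij_chart hfχ).2
    rw [h2, h1]
    exact h3.comp hs
  obtain ⟨S, hS, hS0, hSF⟩ := local_section hFc hFs
  have hFv : F v = χ (f x) := by rw [hFd, hx]
  rw [hFv] at hS hS0 hSF
  -- the derivative in the chart
  set A₀ : Cm (p + 1) →L[ℂ] Cm p := fderiv ℂ ((fun z => χ (f z)) ∘ κ.symm) (κ x) with hA₀
  have hA₀e : dV (Cm (p + 1)) (fun z => χ (f z)) x = A₀.comp (dV (Cm (p + 1)) (κ : X → Cm (p + 1)) x) :=
    dV_eq_chart hxκ hχf
  have hfs : Function.Surjective (dM (Cm (p + 1)) (Cm p) f x) := by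
    intro y
    have h1 := mfderiv_comp v (g := f) (f := φ) ((hf (φ v)).mdifferentiableAt (by simp))
      (hφv.mdifferentiableAt (by simp))
    obtain ⟨w, hw⟩ := hs y
    have h2 : mfderiv 𝓘(ℂ, Cm m) 𝓘(ℂ, Cm p) (f ∘ φ) v w = y := hw
    rw [h1] at h2
    rw [hx]
    exact ⟨_, h2⟩
  have hdχf : dV (Cm (p + 1)) (fun z => χ (f z)) x =
      (dV (Cm p) (χ : Y → Cm p) (f x)).comp (dM (Cm (p + 1)) (Cm p) f x) :=
    dV_comp (E' := Cm p) (h := fun y => χ y) (HolV.chart hfχ) (hf x)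
  have hA₀s : Function.Surjective A₀ := by
    intro y
    obtain ⟨ξ, hξ⟩ := ((bij_chart hfχ).2.comp hfs) y
    refine ⟨dV (Cm (p + 1)) (κ : X → Cm (p + 1)) x ξ, ?_⟩
    have h1 := congrArg (fun L : Cm (p + 1) →L[ℂ] Cm p => L ξ) (hA₀e.symm.trans hdχf)
    exact h1.trans hξ
  obtain ⟨l, hl, ξ₀, hξ₀, hAξ₀⟩ := exists_compl hA₀s
  -- the section
  have hκφ : ContDiffAt ℂ ω (fun w => κ (φ w)) v := by
    have h1 : HolV (Cm m) (fun w => κ (φ w)) v :=
      HolV.comp (E' := Cm (p + 1)) (h := fun z => κ z) (hx ▸ hκh) hφv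
    exact contMDiffAt_iff_contDiffAt.1 h1
  obtain ⟨τ, hτd⟩ : ∃ τ : Cm p → Cm (p + 1), τ = fun y => κ (φ (S y)) := ⟨_, rfl⟩
  have hτ : ContDiffAt ℂ ω τ (χ (f x)) := by
    rw [hτd]
    exact ContDiffAt.comp (χ (f x)) (g := fun w => κ (φ w)) (by rw [hS0]; exact hκφ) hS
  have hτ0 : τ (χ (f x)) = κ x := by
    rw [hτd]
    show κ (φ (S (χ (f x)))) = κ x
    rw [hS0, hx]
  have he1 : HolV (Cm (p + 1)) (fun z => l (κ z)) x :=
    HolV.comp_contDiff (G := fun w => l w) l.contDiff.contDiffAt hκh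
  have he2 : HolV (Cm (p + 1)) (fun z => l (τ (χ (f z)))) x :=
    HolV.comp_contDiff (G := fun y => l (τ y)) (l.contDiff.contDiffAt.comp _ hτ) hχf
  obtain ⟨e, hed⟩ : ∃ e : X → ℂ, e = fun z => l (κ z) - l (τ (χ (f z))) := ⟨_, rfl⟩
  have he : HolV (Cm (p + 1)) e x := by
    rw [hed]
    exact ContMDiffAt.sub he1 he2
  have he0 : e x = 0 := by
    rw [hed]
    show l (κ x) - l (τ (χ (f x))) = 0
    rw [hτ0, sub_self]
  have hker : ∀ ξ : Cm (p + 1), dM (Cm (p + 1)) (Cm p) f x ξ = 0 →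
      dV (Cm (p + 1)) e x ξ = l (dV (Cm (p + 1)) (κ : X → Cm (p + 1)) x ξ) := by
    intro ξ hξ
    have h1 : dV (Cm (p + 1)) e x ξ = dV (Cm (p + 1)) (fun z => l (κ z)) x ξ -
        dV (Cm (p + 1)) (fun z => l (τ (χ (f z)))) x ξ := by
      rw [hed]
      have h2 := mfderiv_sub (I := 𝓘(ℂ, Cm (p + 1))) he1.mdiff he2.mdiff
      exact congrArg (fun L : Cm (p + 1) →L[ℂ] ℂ => L ξ) h2
    have h2 : dV (Cm (p + 1)) (fun z => l (κ z)) x ξ =
        l (dV (Cm (p + 1)) (κ : X → Cm (p + 1)) x ξ) := by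
      rw [dV_comp_contDiff (G := fun w => l w) l.contDiff.contDiffAt hκh]
      have h3 : fderiv ℂ (fun w => l w) (κ x) = l := l.fderiv
      rw [h3]
      rfl
    have h3 : dV (Cm (p + 1)) (fun z => l (τ (χ (f z)))) x ξ = 0 := by
      have h5 : ContDiffAt ℂ ω (fun y => l (τ y)) (χ (f x)) := l.contDiff.contDiffAt.comp _ hτ
      rw [dV_comp_contDiff (G := fun y => l (τ y)) (v := fun z => χ (f z)) (x := x) h5 hχf, hdχf]
      show fderiv ℂ (fun y => l (τ y)) (χ (f x)) (dV (Cm p) (χ : Y → Cm p) (f x)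
        (dM (Cm (p + 1)) (Cm p) f x ξ)) = 0
      rw [hξ, map_zero, map_zero]
    rw [h1, h2, h3, sub_zero]
  have hinj : ∀ ξ : Cm (p + 1), dM (Cm (p + 1)) (Cm p) f x ξ = 0 →
      dV (Cm (p + 1)) e x ξ = 0 → ξ = 0 := by
    intro ξ h1 h2
    rw [hker ξ h1] at h2
    have h3 : A₀ (dV (Cm (p + 1)) (κ : X → Cm (p + 1)) x ξ) = 0 := by
      have h4 := congrArg (fun L : Cm (p + 1) →L[ℂ] Cm p => L ξ) (hA₀e.symm.trans hdχf)
      refine h4.trans ?_
      show dV (Cm p) (χ : Y → Cm p) (f x) (dM (Cm (p + 1)) (Cm p) f x ξ) = 0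
      rw [h1, map_zero]
    exact (bij_chart hxκ).1 ((hl _ h3 h2).trans (map_zero _).symm)
  have hdne : J.dif (Cm (p + 1)) e x ≠ 0 := by
    intro h0
    obtain ⟨ξ, hξ⟩ := (bij_chart hxκ).2 ξ₀
    have h1 : dM (Cm (p + 1)) (Cm p) f x ξ = 0 := by
      apply (bij_chart hfχ).1
      rw [map_zero]
      have h4 := congrArg (fun L : Cm (p + 1) →L[ℂ] Cm p => L ξ) (hA₀e.symm.trans hdχf)
      refine h4.symm.trans ?_
      show A₀ (dV (Cm (p + 1)) (κ : X → Cm (p + 1)) x ξ) = 0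
      rw [hξ]
      exact hAξ₀
    have h2 := hinj ξ h1 (by
      show J.dif (Cm (p + 1)) e x ξ = 0
      rw [h0]
      rfl)
    rw [h2, map_zero] at hξ
    exact hξ₀ hξ.symm
  rw [← hx]
  refine ⟨e, he, he0, hdne, ?_, ?_⟩
  · -- points of `{e = 0}`
    have hΦ : ContDiffAt ℂ ω (fun w => (((fun z => χ (f z)) ∘ κ.symm) w, l w)) (κ x) :=
      (hχf.rep hxκ).prodMk l.contDiff.contDiffAt
    have hΦd : fderiv ℂ (fun w => (((fun z => χ (f z)) ∘ κ.symm) w, l w)) (κ x) = A₀.prod l := by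
      have h1 := ((hχf.rep hxκ).differentiableAt (by simp)).hasFDerivAt.prodMk (l.hasFDerivAt (x := κ x))
      exact h1.fderiv
    obtain ⟨N, hN, hNi⟩ := local_inj hΦ (by
      rw [hΦd]
      refine (injective_iff_map_eq_zero _).2 fun ξ hξ => ?_
      have h1 : (A₀ ξ, l ξ) = (0 : Cm p × ℂ) := hξ
      exact hl ξ (congrArg Prod.fst h1) (congrArg Prod.snd h1))
    have hc1 : Tendsto (fun z => χ (f z)) (𝓝 x) (𝓝 (χ (f x))) := hχf.continuousAt
    have hc2 : Tendsto (fun z => S (χ (f z))) (𝓝 x) (𝓝 v) := by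
      have h1 := hS.continuousAt.tendsto.comp hc1
      rw [hS0] at h1
      exact h1
    have hc3 : Tendsto (fun z => τ (χ (f z))) (𝓝 x) (𝓝 (κ x)) := by
      have h1 := hτ.continuousAt.tendsto.comp hc1
      rw [hτ0] at h1
      exact h1
    have hc4 : Tendsto (fun z => φ (S (χ (f z)))) (𝓝 x) (𝓝 x) := by
      have h1 := hφv.continuousAt.tendsto.comp hc2
      rw [← hx] at h1
      exact h1
    filter_upwards [hc1.eventually hSF, hc2.eventually (isOpen_ball.mem_nhds hv),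
      hc3.eventually hN, hκh.continuousAt.eventually hN,
      hc4.eventually (κ.open_source.mem_nhds hxκ), κ.open_source.mem_nhds hxκ]
      with z h1 h2 h3 h4 h5 h6 hez
    have h7 : τ (χ (f z)) = κ (φ (S (χ (f z)))) := by rw [hτd]
    have h8 : κ z = τ (χ (f z)) := by
      refine hNi h4 h3 ?_
      have h9 : l (κ z) = l (τ (χ (f z))) := by
        have h10 : l (κ z) - l (τ (χ (f z))) = 0 := by
          rw [hed] at hez
          exact hez
        exact sub_eq_zero.1 h10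
      have h10 : χ (f (κ.symm (κ z))) = χ (f (κ.symm (τ (χ (f z))))) := by
        rw [κ.left_inv h6, h7, κ.left_inv h5]
        have h11 : χ (f (φ (S (χ (f z))))) = χ (f z) := by
          rw [hFd] at h1
          exact h1
        exact h11.symm
      exact Prod.ext h10 h9
    have h9 : z = φ (S (χ (f z))) := κ.injOn h6 h5 (h8.trans h7)
    rw [h9]
    exact (hφ _ h2).2
  · -- nondegeneracy near `x`
    have h1 := jac_eq hf hxκ hfχ he
    have h2 := h1.1.continuousAt.eventually_ne (fun h0 => by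
      obtain ⟨ξ, hξ, h3, h4⟩ := h1.2.1 h0
      exact hξ (hinj ξ h3 h4))
    filter_upwards [h2, he.eventually, κ.open_source.mem_nhds hxκ,
      hf.continuous.continuousAt.eventually (χ.open_source.mem_nhds hfχ)]
      with z h3 h4 h5 h6 ξ h7 h8
    by_contra hξ
    exact h3 ((jac_eq hf h5 h6 h4).2.2 ⟨ξ, hξ, h7, h8⟩)

end Vale.Agent.P281.H383.TM
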