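import Vale.Agent.P281.H740.TM.Spec
import Vale.Agent.P281.H740.TW.Level

/-!
# P281, project T-M (helper383), block T12: the theorem from the blocks
-/

open Set Filter
open Vale.Agent.P281 Vale.Agent.P281.H713 Vale.Agent.P281.H713.TZ.S
open Vale.Agent.P281.H64.Thin (IsThinSet)
open Vale.Agent.P281.H64.Gen (IsSmallSet CritStmt)
open Vale.Agent.P281.H740.TM
open scoped Manifold ContDiff Topology

set_option linter.all false

noncomputable section

namespace Vale.Agent.P281.H383.TM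

theorem thin_union2 {p : ℕ} {Y : Type} [TopologicalSpace Y] [ChartedSpace (Cm p) Y]
    {H H' : ℕ → Set Y} (hH : ∀ k, IsThinSet (Cm p) (H k)) (hH' : ∀ k, IsThinSet (Cm p) (H' k)) :
    ∃ K : ℕ → Set Y, (∀ k, IsThinSet (Cm p) (K k)) ∧ ∀ y, (∀ k, y ∉ K k) →
      (∀ k, y ∉ H k) ∧ ∀ k, y ∉ H' k := by
  refine ⟨fun k => Sum.elim H H' (Equiv.natSumNatEquivNat.symm k), fun k => ?_, fun y hy => ?_⟩
  · show IsThinSet (Cm p) (Sum.elim H H' (Equiv.natSumNatEquivNat.symm k))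
    rcases Equiv.natSumNatEquivNat.symm k with j | j
    · exact hH j
    · exact hH' j
  · constructor
    · intro k
      have := hy (Equiv.natSumNatEquivNat (Sum.inl k))
      simpa using this
    · intro k
      have := hy (Equiv.natSumNatEquivNat (Sum.inr k))
      simpa using this

/-- **T12**: **T-M** from the blocks -/
theorem tm_of (crit : CritStmt) (ell : EllStmt) (dich : DichStmt) (l2 : L2Stmt)
    (theta : ThetaStmt) (mb : MBaseStmt) (flag : FlagStmt) (restr : RestrStmt) : TMStmt := by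
  intro q X Z Y _ _ _ _ _ _ g h Δ hg hh hE hv
  have := hg.manifold.1
  have := hg.manifold.2
  have := hh.manifold.2
  have := hg.hausdorff.1
  have := hh.hausdorff.1
  have := hh.hausdorff.2
  have := hh.compact
  obtain ⟨S, hS, hP, hT⟩ := ell (q + 1) X Z g Δ hg hE
  let e₀ : Cm (q + 1 + 1) ≃L[ℂ] (Cm (q + 1) × ℂ) := ContinuousLinearEquiv.ofFinrankEq (by simp)
  have hD := dich (q + 1) X Z g Δ S e₀ hg hS hP hT
  obtain ⟨K, Θ, hΘ, hne, hle⟩ := l2 (q + 1) X Z g Δ S e₀ hg hS hP hT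
  obtain ⟨w, Θ', hstd, hle'⟩ := theta (q + 1) X Z g Δ S e₀ hg hS hP K Θ hΘ hle hne
  obtain ⟨hΓ1, hΓ2, hΓ3, hΓ4⟩ := mb (q + 1) X Z g Δ S e₀ w Θ' hstd hle' _ rfl
  obtain ⟨H₁, hH₁, hC⟩ := flag q X Z Y g h Δ S e₀ w Θ' hstd hh _ hΓ1 hΓ2 hΓ3 fun D hD =>
    (hΓ4 D hD).2
  obtain ⟨H₂, hH₂, hF⟩ := restr q X Z Y g h Δ S e₀ w Θ' hstd hD hv hh _ hΓ1 hΓ2 hΓ3 fun D hD =>
    (hΓ4 D hD).1
  obtain ⟨S₂, ⟨hS₂, H₃, hH₃, hsub⟩, hP₂⟩ := crit (q + 1) q Z Y h hh.hol hh.fibres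
  have hP₂' := hP₂ S₂ Subset.rfl hS₂
  obtain ⟨H', hH', hHy'⟩ := thin_union2 hH₁ hH₂
  obtain ⟨H, hH, hHy⟩ := thin_union2 hH' hH₃
  refine ⟨H, hH, fun y hy F _ _ _ i hi hinj => ?_⟩
  obtain ⟨y12, y3⟩ := hHy y hy
  obtain ⟨y1, y2⟩ := hHy' y y12
  have hyS : y ∉ S₂ := fun h1 => by
    obtain ⟨k, hk⟩ := mem_iUnion.1 (hsub h1)
    exact y3 k hk
  have hn : Module.finrank ℂ (Cm (q + 1)) =
      Module.finrank ℂ (Cm q) + Module.finrank ℂ (Cm 1) := by
    simp only [Module.finrank_fin_fun]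
  obtain ⟨cs, hman, hval, himm⟩ := H740.exists_level (E₀ := Cm 1) hn hh.hol fun x' hx' =>
    hP₂'.submersive x' (by rw [hx']; exact hyS)
  have hcomp : CompactSpace (h ⁻¹' {y}) :=
    isCompact_iff_compactSpace.1 (isClosed_singleton.preimage hh.hol.continuous).isCompact
  have hconn : ConnectedSpace (h ⁻¹' {y}) := isConnected_iff_connectedSpace.1 (hh.fibres y)
  have hfib : H511.Surf.IsFibre (Cm (q + 1)) (Cm 1) h y (Subtype.val : h ⁻¹' {y} → Z) :=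
    ⟨hcomp, hconn, hman, hval, himm, fun t => t.2⟩
  have h1 := hF y y2 F i (h ⁻¹' {y}) Subtype.val hi hinj hfib Subtype.val_injective
  exact (add_le_add h1 le_rfl).trans (hC y y1 (h ⁻¹' {y}) Subtype.val hfib)

end Vale.Agent.P281.H383.TM
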